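import Mathlib
import Claimed.Agent.R291.Defs.Frozen

/-!
# Row 291 (S0539), Top/Mom : METHOD OF MOMENTS AND THE TOP REDUCTION      (owner helper175; prefix `tmm_`, defs `tmm*`)      complete

Mathlib + the frozen Def_0467 only.
* `tmm_exp_I_le`        `‖exp (i y) - ∑_{k<K} (i y)^k / k!‖ ≤ |y|^K / K!`
* `tmmWick v k`         Wick numbers (moments of `N(0,v)`) by their recursion `W_0 = 1, W_1 = 0, W_(k+2) = (k+1) v W_k`
* `tmm_charFun_le`      characteristic function against its Taylor polynomial in the moments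
* **`tmm_gauss`**       method of moments: probability measures on `ℝ` whose moments converge to the Wick numbers converge weakly to `gaussianReal 0 v`
                        (Levy continuity theorem of Mathlib)
* `tmmLaw s w X`        law of `X` under finite weights; `tmm_law_integral`
* `tmmLip x δ σ F f`    law of `heightPairing δ f h / σ` in the frozen model; `tmm_lip_integral : ∫ g ∂tmmLip = lipschitzExpect .. g` (ANY `g`)
* **`tmm_top`**         all moments `lipschitzExpect x (δ n) σ (F n) f (· ^ k) → tmmWick v k`  ⟹  the frozen conclusion with variance `v.toNNReal`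
-/

set_option autoImplicit false

namespace Claimed.Agent.R291

open MeasureTheory ProbabilityTheory Filter Topology BoundedContinuousFunction Set
open scoped NNReal ENNReal
open Claims Claims.C0467

/-! ### Taylor remainder of the exponential on the imaginary axis -/

/-- the Taylor remainder of order `K` of `x ↦ exp (x c)` -/
noncomputable def tmmR (c : ℂ) (K : ℕ) (x : ℝ) : ℂ :=
  Complex.exp (x * c) - ∑ k ∈ Finset.range K, ((x : ℂ) * c) ^ k / (k.factorial : ℂ)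

theorem tmm_R_deriv (c : ℂ) (K : ℕ) (x : ℝ) : HasDerivAt (tmmR c (K + 1)) (c * tmmR c K x) x := by
  have hx : HasDerivAt (fun y : ℝ => (y : ℂ) * c) c x := by
    simpa using ((hasDerivAt_id x).ofReal_comp).mul_const c
  have h1 : HasDerivAt (fun y : ℝ => Complex.exp (y * c)) (Complex.exp (x * c) * c) x := hx.cexp
  have h2 : HasDerivAt (fun y : ℝ => ∑ k ∈ Finset.range (K + 1), ((y : ℂ) * c) ^ k / (k.factorial : ℂ))
      (∑ k ∈ Finset.range K, c * (((x : ℂ) * c) ^ k / (k.factorial : ℂ))) x := by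
    have e : (fun y : ℝ => ∑ k ∈ Finset.range (K + 1), ((y : ℂ) * c) ^ k / (k.factorial : ℂ))
        = fun y : ℝ => ∑ k ∈ Finset.range K, ((y : ℂ) * c) ^ (k + 1) / ((k + 1).factorial : ℂ) + 1 := by
      funext y
      rw [Finset.sum_range_succ']
      simp
    rw [e]
    refine HasDerivAt.add_const 1 (HasDerivAt.fun_sum fun k _ => ?_)
    have h3 := (hx.fun_pow (k + 1)).div_const ((k + 1).factorial : ℂ)
    refine h3.congr_deriv ?_
    have hk : ((k + 1 : ℕ) : ℂ) ≠ 0 := by exact_mod_cast Nat.succ_ne_zero k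
    have hf : (k.factorial : ℂ) ≠ 0 := by exact_mod_cast Nat.factorial_ne_zero k
    rw [Nat.factorial_succ]
    push_cast
    field_simp
  have h := h1.fun_sub h2
  unfold tmmR
  refine h.congr_deriv ?_
  rw [← Finset.mul_sum]
  ring

theorem tmm_R_zero (c : ℂ) (K : ℕ) : tmmR c (K + 1) 0 = 0 := by
  unfold tmmR
  rw [Finset.sum_range_succ']
  simp

/-- `‖exp (x c) - ∑_{k<K} (x c)^k / k!‖ ≤ (x ‖c‖)^K / K!` for purely imaginary `c`, `x ≥ 0` -/
theorem tmm_R_le (c : ℂ) (hc : c.re = 0) (K : ℕ) : ∀ x : ℝ, 0 ≤ x → ‖tmmR c K x‖ ≤ (x * ‖c‖) ^ K / K.factorial := by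
  induction K with
  | zero =>
    intro x _
    simp [tmmR, Complex.norm_exp, hc]
  | succ K ih =>
    intro x hx
    have hB : ∀ y : ℝ, HasDerivAt (fun y : ℝ => (y * ‖c‖) ^ (K + 1) / ((K + 1).factorial : ℝ))
        (‖c‖ * ((y * ‖c‖) ^ K / (K.factorial : ℝ))) y := by
      intro y
      have h0 : HasDerivAt (fun y : ℝ => y * ‖c‖) ‖c‖ y := by simpa using (hasDerivAt_id y).mul_const ‖c‖
      have h3 := (h0.fun_pow (K + 1)).div_const ((K + 1).factorial : ℝ)
      refine h3.congr_deriv ?_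
      have hk : ((K + 1 : ℕ) : ℝ) ≠ 0 := by exact_mod_cast Nat.succ_ne_zero K
      have hf : (K.factorial : ℝ) ≠ 0 := by exact_mod_cast Nat.factorial_ne_zero K
      rw [Nat.factorial_succ]
      push_cast
      field_simp
    refine image_norm_le_of_norm_deriv_right_le_deriv_boundary (a := 0) (b := x) (f := tmmR c (K + 1))
      (f' := fun y => c * tmmR c K y)
      (fun y _ => (tmm_R_deriv c K y).continuousAt.continuousWithinAt)
      (fun y _ => (tmm_R_deriv c K y).hasDerivWithinAt) (by simp [tmm_R_zero]) hB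
      (fun y hy => ?_) ⟨hx, le_rfl⟩
    rw [norm_mul]
    exact mul_le_mul_of_nonneg_left (ih y hy.1) (norm_nonneg _)

/-- `‖exp (i y) - ∑_{k<K} (i y)^k / k!‖ ≤ |y|^K / K!` -/
theorem tmm_exp_I_le (y : ℝ) (K : ℕ) :
    ‖Complex.exp (y * Complex.I) - ∑ k ∈ Finset.range K, ((y : ℂ) * Complex.I) ^ k / (k.factorial : ℂ)‖
      ≤ |y| ^ K / K.factorial := by
  have h := tmm_R_le (y * Complex.I) (by simp) K 1 zero_le_one
  simpa [tmmR] using h

/-! ### Wick numbers -/

/-- Wick numbers = moments of `N(0,v)`, by their recursion -/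
def tmmWick (v : ℝ) : ℕ → ℝ
  | 0 => 1
  | 1 => 0
  | k + 2 => (k + 1) * v * tmmWick v k

theorem tmm_wick_zero (v : ℝ) : tmmWick v 0 = 1 := rfl
theorem tmm_wick_one (v : ℝ) : tmmWick v 1 = 0 := rfl
theorem tmm_wick_succ (v : ℝ) (k : ℕ) : tmmWick v (k + 2) = (k + 1) * v * tmmWick v k := rfl

theorem tmm_wick_odd (v : ℝ) (j : ℕ) : tmmWick v (2 * j + 1) = 0 := by
  induction j with
  | zero => rfl
  | succ j ih =>
    rw [show 2 * (j + 1) + 1 = (2 * j + 1) + 2 by ring, tmm_wick_succ, ih, mul_zero]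

theorem tmm_wick_even (v : ℝ) (j : ℕ) : tmmWick v (2 * j) / ((2 * j).factorial : ℝ) = (v / 2) ^ j / (j.factorial : ℝ) := by
  induction j with
  | zero => simp [tmmWick]
  | succ j ih =>
    have h1 : ((2 * j).factorial : ℝ) ≠ 0 := by exact_mod_cast Nat.factorial_ne_zero _
    have h2 : (j.factorial : ℝ) ≠ 0 := by exact_mod_cast Nat.factorial_ne_zero _
    rw [div_eq_div_iff h1 h2] at ih
    rw [show 2 * (j + 1) = 2 * j + 2 by ring, tmm_wick_succ, Nat.factorial_succ, Nat.factorial_succ, Nat.factorial_succ]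
    push_cast
    have h3 : (2 * (j : ℝ) + 1 + 1) ≠ 0 := by positivity
    have h4 : (2 * (j : ℝ) + 1) ≠ 0 := by positivity
    have h5 : ((j : ℝ) + 1) ≠ 0 := by positivity
    rw [div_eq_div_iff (by positivity) (by positivity)]
    calc (2 * (j : ℝ) + 1) * v * tmmWick v (2 * j) * (((j : ℝ) + 1) * (j.factorial : ℝ))
        = (2 * (j : ℝ) + 1) * v * ((j : ℝ) + 1) * (tmmWick v (2 * j) * (j.factorial : ℝ)) := by ring
      _ = (2 * (j : ℝ) + 1) * v * ((j : ℝ) + 1) * ((v / 2) ^ j * ((2 * j).factorial : ℝ)) := by rw [ih]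
      _ = _ := by ring

theorem tmm_wick_nonneg {v : ℝ} (hv : 0 ≤ v) : ∀ k, 0 ≤ tmmWick v k
  | 0 => zero_le_one
  | 1 => le_rfl
  | k + 2 => by
    rw [tmm_wick_succ]
    have := tmm_wick_nonneg hv k
    positivity

/-! ### the characteristic function and the moments -/

theorem tmm_charFun_le (μ : Measure ℝ) [IsProbabilityMeasure μ] (hint : ∀ k : ℕ, Integrable (fun x : ℝ => x ^ k) μ)
    (t : ℝ) (j : ℕ) :
    ‖charFun μ t - ∑ k ∈ Finset.range (2 * j),
        ((t : ℂ) * Complex.I) ^ k / (k.factorial : ℂ) * ((∫ x, x ^ k ∂μ : ℝ) : ℂ)‖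
      ≤ |t| ^ (2 * j) / ((2 * j).factorial : ℝ) * ∫ x, x ^ (2 * j) ∂μ := by
  have hfun : ∀ k : ℕ, (fun x : ℝ => (((t * x : ℝ) : ℂ) * Complex.I) ^ k / (k.factorial : ℂ))
      = fun x : ℝ => ((t : ℂ) * Complex.I) ^ k / (k.factorial : ℂ) * ((x ^ k : ℝ) : ℂ) := by
    intro k; funext x; push_cast; ring
  have hi : ∀ k : ℕ, Integrable (fun x : ℝ => (((t * x : ℝ) : ℂ) * Complex.I) ^ k / (k.factorial : ℂ)) μ := by
    intro k; rw [hfun k]; exact ((hint k).ofReal).const_mul _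
  have e1 : ∀ k : ℕ, ∫ x, (((t * x : ℝ) : ℂ) * Complex.I) ^ k / (k.factorial : ℂ) ∂μ
      = ((t : ℂ) * Complex.I) ^ k / (k.factorial : ℂ) * ((∫ x, x ^ k ∂μ : ℝ) : ℂ) := by
    intro k; rw [hfun k, integral_const_mul, integral_complex_ofReal]
  have hexp : Integrable (fun x : ℝ => Complex.exp (((t * x : ℝ) : ℂ) * Complex.I)) μ := by
    refine Integrable.of_bound (C := 1) (by fun_prop) (Eventually.of_forall fun x => ?_)
    rw [Complex.norm_exp_ofReal_mul_I]
  have e2 : charFun μ t - ∑ k ∈ Finset.range (2 * j),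
        ((t : ℂ) * Complex.I) ^ k / (k.factorial : ℂ) * ((∫ x, x ^ k ∂μ : ℝ) : ℂ)
      = ∫ x, (Complex.exp (((t * x : ℝ) : ℂ) * Complex.I)
          - ∑ k ∈ Finset.range (2 * j), (((t * x : ℝ) : ℂ) * Complex.I) ^ k / (k.factorial : ℂ)) ∂μ := by
    rw [integral_sub hexp (integrable_finsetSum _ fun k _ => hi k), integral_finsetSum _ fun k _ => hi k]
    simp only [e1]
    congr 1
  rw [e2, ← integral_const_mul]
  refine norm_integral_le_of_norm_le ((hint (2 * j)).const_mul _) (Eventually.of_forall fun x => ?_)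
  refine (tmm_exp_I_le (t * x) (2 * j)).trans (le_of_eq ?_)
  rw [abs_mul, mul_pow, (even_two_mul j).pow_abs x]
  ring

/-- the partial sums of the formal characteristic function of the Wick numbers -/
theorem tmm_wick_sum (v t : ℝ) (j : ℕ) :
    ∑ k ∈ Finset.range (2 * j), ((t : ℂ) * Complex.I) ^ k / (k.factorial : ℂ) * ((tmmWick v k : ℝ) : ℂ)
      = ∑ i ∈ Finset.range j, ((-(v * t ^ 2 / 2) : ℝ) : ℂ) ^ i / (i.factorial : ℂ) := by
  induction j with
  | zero => simp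
  | succ j ih =>
    rw [show 2 * (j + 1) = 2 * j + 1 + 1 by ring, Finset.sum_range_succ, Finset.sum_range_succ, ih,
      Finset.sum_range_succ, tmm_wick_odd]
    have h := tmm_wick_even v j
    have h1 : ((2 * j).factorial : ℝ) ≠ 0 := by exact_mod_cast Nat.factorial_ne_zero _
    have e : ((tmmWick v (2 * j) : ℝ) : ℂ) / ((2 * j).factorial : ℂ) = ((v / 2 : ℝ) : ℂ) ^ j / (j.factorial : ℂ) := by
      have := congrArg (fun r : ℝ => (r : ℂ)) h
      simpa using this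
    have e2 : ((t : ℂ) * Complex.I) ^ (2 * j) = ((-(t ^ 2) : ℝ) : ℂ) ^ j := by
      rw [pow_mul, mul_pow, Complex.I_sq]; push_cast; ring
    calc _ = ∑ i ∈ Finset.range j, ((-(v * t ^ 2 / 2) : ℝ) : ℂ) ^ i / (i.factorial : ℂ)
          + ((t : ℂ) * Complex.I) ^ (2 * j) * (((tmmWick v (2 * j) : ℝ) : ℂ) / ((2 * j).factorial : ℂ)) := by
          simp only [Complex.ofReal_zero, mul_zero, add_zero]; ring
      _ = _ := by
          rw [e, e2, ← mul_div_assoc, ← mul_pow]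
          congr 3
          push_cast; ring

theorem tmm_charFun_tendsto (μ : ℕ → Measure ℝ) [∀ n, IsProbabilityMeasure (μ n)]
    (hint : ∀ n (k : ℕ), Integrable (fun x : ℝ => x ^ k) (μ n)) (v : ℝ)
    (hmom : ∀ k : ℕ, Tendsto (fun n => ∫ x, x ^ k ∂μ n) atTop (𝓝 (tmmWick v k))) (t : ℝ) :
    Tendsto (fun n => charFun (μ n) t) atTop (𝓝 (Complex.exp ((-(v * t ^ 2 / 2) : ℝ) : ℂ))) := by
  obtain ⟨L, hL⟩ : ∃ L, L = Complex.exp ((-(v * t ^ 2 / 2) : ℝ) : ℂ) := ⟨_, rfl⟩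
  rw [← hL]
  -- partial sums
  obtain ⟨Sj, hSj⟩ : ∃ Sj : ℕ → ℂ, Sj = fun j => ∑ k ∈ Finset.range (2 * j),
      ((t : ℂ) * Complex.I) ^ k / (k.factorial : ℂ) * ((tmmWick v k : ℝ) : ℂ) := ⟨_, rfl⟩
  have hS : Tendsto Sj atTop (𝓝 L) := by
    have h := (NormedSpace.expSeries_div_hasSum_exp (𝔸 := ℂ) ((-(v * t ^ 2 / 2) : ℝ) : ℂ)).tendsto_sum_nat
    rw [← Complex.exp_eq_exp_ℂ, ← hL] at h
    rw [hSj]
    simpa only [tmm_wick_sum] using h
  have hE : Tendsto (fun j : ℕ => |t| ^ (2 * j) / ((2 * j).factorial : ℝ) * tmmWick v (2 * j)) atTop (𝓝 0) := by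
    have h := FloorSemiring.tendsto_pow_div_factorial_atTop (t ^ 2 * (v / 2))
    refine h.congr fun j => ?_
    have h2 := tmm_wick_even v j
    rw [pow_mul, sq_abs, mul_pow, mul_div_assoc, ← h2]
    ring
  have hc : Tendsto (fun j : ℕ => |t| ^ (2 * j) / ((2 * j).factorial : ℝ) * tmmWick v (2 * j) + 0 + ‖Sj j - L‖)
      atTop (𝓝 (0 + 0 + 0)) :=
    (hE.add tendsto_const_nhds).add (tendsto_iff_norm_sub_tendsto_zero.1 hS)
  simp only [add_zero] at hc
  rw [tendsto_iff_norm_sub_tendsto_zero]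
  refine tendsto_order.2 ⟨fun a ha => Eventually.of_forall fun n => lt_of_lt_of_le ha (norm_nonneg _), fun ε hε => ?_⟩
  obtain ⟨j, hj⟩ := (hc.eventually (gt_mem_nhds hε)).exists
  -- the polynomial part converges
  have hP : Tendsto (fun n => ∑ k ∈ Finset.range (2 * j),
      ((t : ℂ) * Complex.I) ^ k / (k.factorial : ℂ) * ((∫ x, x ^ k ∂μ n : ℝ) : ℂ)) atTop (𝓝 (Sj j)) := by
    rw [hSj]
    exact tendsto_finsetSum _ fun k _ => ((Complex.continuous_ofReal.tendsto _).comp (hmom k)).const_mul _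
  have hu : Tendsto (fun n => |t| ^ (2 * j) / ((2 * j).factorial : ℝ) * (∫ x, x ^ (2 * j) ∂μ n)
      + ‖(∑ k ∈ Finset.range (2 * j), ((t : ℂ) * Complex.I) ^ k / (k.factorial : ℂ) * ((∫ x, x ^ k ∂μ n : ℝ) : ℂ)) - Sj j‖
      + ‖Sj j - L‖) atTop (𝓝 (|t| ^ (2 * j) / ((2 * j).factorial : ℝ) * tmmWick v (2 * j) + 0 + ‖Sj j - L‖)) :=
    (((hmom (2 * j)).const_mul _).add (tendsto_iff_norm_sub_tendsto_zero.1 hP)).add tendsto_const_nhds
  simp only [add_zero] at hu
  filter_upwards [hu.eventually (gt_mem_nhds hj)] with n hn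
  refine lt_of_le_of_lt ?_ hn
  have h1 := tmm_charFun_le (μ n) (hint n) t j
  calc ‖charFun (μ n) t - L‖
      = ‖(charFun (μ n) t - ∑ k ∈ Finset.range (2 * j),
          ((t : ℂ) * Complex.I) ^ k / (k.factorial : ℂ) * ((∫ x, x ^ k ∂μ n : ℝ) : ℂ))
        + ((∑ k ∈ Finset.range (2 * j), ((t : ℂ) * Complex.I) ^ k / (k.factorial : ℂ) * ((∫ x, x ^ k ∂μ n : ℝ) : ℂ)) - Sj j)
        + (Sj j - L)‖ := by congr 1; ring
    _ ≤ _ := (norm_add₃_le).trans (by gcongr)

/-- **method of moments, Gaussian limit** -/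
theorem tmm_gauss (μ : ℕ → Measure ℝ) [∀ n, IsProbabilityMeasure (μ n)]
    (hint : ∀ n (k : ℕ), Integrable (fun x : ℝ => x ^ k) (μ n)) (v : ℝ)
    (hmom : ∀ k : ℕ, Tendsto (fun n => ∫ x, x ^ k ∂μ n) atTop (𝓝 (tmmWick v k))) (φ : ℝ →ᵇ ℝ) :
    Tendsto (fun n => ∫ x, φ x ∂μ n) atTop (𝓝 (∫ x, φ x ∂gaussianReal 0 v.toNNReal)) := by
  have hv : 0 ≤ v := by
    have h2 := hmom 2
    have e : tmmWick v 2 = v := by simp [tmmWick]
    rw [e] at h2
    exact ge_of_tendsto' h2 fun n => integral_nonneg fun x => sq_nonneg x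
  obtain ⟨ν, hν⟩ : ∃ ν : ℕ → ProbabilityMeasure ℝ, ∀ n, (ν n : Measure ℝ) = μ n :=
    ⟨fun n => ⟨μ n, inferInstance⟩, fun _ => rfl⟩
  obtain ⟨ν₀, hν₀⟩ : ∃ ν₀ : ProbabilityMeasure ℝ, (ν₀ : Measure ℝ) = gaussianReal 0 v.toNNReal :=
    ⟨⟨gaussianReal 0 v.toNNReal, inferInstance⟩, rfl⟩
  have h : Tendsto ν atTop (𝓝 ν₀) := by
    refine ProbabilityMeasure.tendsto_iff_tendsto_charFun.2 fun t => ?_
    have := tmm_charFun_tendsto μ hint v hmom t
    simp only [hν, hν₀, charFun_gaussianReal]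
    convert this using 2
    congr 1
    push_cast [Real.coe_toNNReal v hv]
    ring
  have h2 := ProbabilityMeasure.tendsto_iff_forall_integral_tendsto.1 h φ
  simpa only [hν, hν₀] using h2


/-! ### finite weighted laws -/

/-- the law of `X` under the weights `w` on the finite set `s` -/
noncomputable def tmmLaw {α : Type} (s : Finset α) (w X : α → ℝ) : Measure ℝ :=
  ∑ a ∈ s, ENNReal.ofReal (w a / ∑ b ∈ s, w b) • Measure.dirac (X a)

theorem tmm_law_prob {α : Type} (s : Finset α) (w X : α → ℝ) (hw : ∀ a ∈ s, 0 ≤ w a) (hZ : 0 < ∑ b ∈ s, w b) :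
    IsProbabilityMeasure (tmmLaw s w X) := by
  constructor
  unfold tmmLaw
  rw [Measure.finsetSum_apply]
  simp only [Measure.smul_apply, measure_univ, smul_eq_mul, mul_one]
  rw [← ENNReal.ofReal_sum_of_nonneg fun a ha => div_nonneg (hw a ha) hZ.le, ← Finset.sum_div, div_self hZ.ne',
    ENNReal.ofReal_one]

theorem tmm_law_integrable {α : Type} (s : Finset α) (w X : α → ℝ) (g : ℝ → ℝ) : Integrable g (tmmLaw s w X) := by
  unfold tmmLaw
  refine integrable_finsetSum_measure.2 fun a _ => ?_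
  exact (integrable_dirac (by simp)).smul_measure ENNReal.ofReal_ne_top

theorem tmm_law_integral {α : Type} (s : Finset α) (w X : α → ℝ) (hw : ∀ a ∈ s, 0 ≤ w a) (hZ : 0 < ∑ b ∈ s, w b)
    (g : ℝ → ℝ) : ∫ t, g t ∂tmmLaw s w X = (∑ a ∈ s, w a * g (X a)) / ∑ b ∈ s, w b := by
  unfold tmmLaw
  rw [integral_finsetSum_measure fun a _ => (integrable_dirac (by simp)).smul_measure ENNReal.ofReal_ne_top,
    Finset.sum_div]
  refine Finset.sum_congr rfl fun a ha => ?_
  rw [integral_smul_measure, integral_dirac, ENNReal.toReal_ofReal (div_nonneg (hw a ha) hZ.le), smul_eq_mul]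
  ring

/-! ### the frozen model -/

theorem tmm_zero_mem (F : Finset (ℤ × ℤ)) : (fun _ => 0 : F → ℤ) ∈ admissibleHeights F := by
  classical
  unfold admissibleHeights
  rw [Finset.mem_filter]
  have h0 : ∀ u, heightAt (fun _ => 0 : F → ℤ) u = 0 := fun u => by
    unfold heightAt; split_ifs <;> rfl
  refine ⟨?_, fun u _ _ => h0 u, fun u _ v _ _ => by simp [h0]⟩
  rw [Fintype.mem_piFinset]
  intro a
  simp

theorem tmm_Z_pos {x : ℝ} (hx : 0 < x) (F : Finset (ℤ × ℤ)) : 0 < ∑ h ∈ admissibleHeights F, x ^ heightChanges h :=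
  Finset.sum_pos (fun _ _ => pow_pos hx _) ⟨_, tmm_zero_mem F⟩

/-- the law of the normalised pairing -/
noncomputable def tmmLip (x δ σ : ℝ) (F : Finset (ℤ × ℤ)) (f : ℝ × ℝ → ℝ) : Measure ℝ :=
  tmmLaw (admissibleHeights F) (fun h => x ^ heightChanges h) fun h => heightPairing δ f h / σ

theorem tmm_lip_prob {x : ℝ} (hx : 0 < x) (δ σ : ℝ) (F : Finset (ℤ × ℤ)) (f : ℝ × ℝ → ℝ) :
    IsProbabilityMeasure (tmmLip x δ σ F f) :=
  tmm_law_prob _ _ _ (fun _ _ => (pow_pos hx _).le) (tmm_Z_pos hx F)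

theorem tmm_lip_integral {x : ℝ} (hx : 0 < x) (δ σ : ℝ) (F : Finset (ℤ × ℤ)) (f : ℝ × ℝ → ℝ) (g : ℝ → ℝ) :
    ∫ t, g t ∂tmmLip x δ σ F f = lipschitzExpect x δ σ F f g :=
  tmm_law_integral _ _ _ (fun _ _ => (pow_pos hx _).le) (tmm_Z_pos hx F) g

/-- **TOP reduction**: convergence of all moments of the normalised pairing to the Wick numbers gives the frozen conclusion -/
theorem tmm_top {x : ℝ} (hx : 0 < x) (σ : ℝ) (δ : ℕ → ℝ) (F : ℕ → Finset (ℤ × ℤ)) (f : ℝ × ℝ → ℝ) (v : ℝ)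
    (hmom : ∀ k : ℕ, Tendsto (fun n => lipschitzExpect x (δ n) σ (F n) f fun t => t ^ k) atTop (𝓝 (tmmWick v k)))
    (φ : ℝ →ᵇ ℝ) :
    Tendsto (fun n => lipschitzExpect x (δ n) σ (F n) f φ) atTop (𝓝 (∫ t, φ t ∂gaussianReal 0 v.toNNReal)) := by
  have := fun n => tmm_lip_prob hx (δ n) σ (F n) f
  have h := tmm_gauss (fun n => tmmLip x (δ n) σ (F n) f) (fun n k => tmm_law_integrable _ _ _ _) v
    (by simpa only [tmm_lip_integral hx] using hmom) φ
  simpa only [tmm_lip_integral hx] using h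

end Claimed.Agent.R291
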